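import Vale.Agent.P123.Final

namespace Vale.Agent.Results.P123.A0_Combined

open Polynomial Vale.Agent.P123

/-- Crouzeix's inequality with constant `2`, together with the numerical radius bound with
constant `1`, in three regimes, for all bounded operators `A` on a complex inner product space:
(1) every `P` whose sublevel set `{w : |P w| ≤ sup_{W(A)} |P|}` is star-convex about every point
of `W(A)`;
(2) every `P` whose zeros lie in a disc of radius `ρ` about `c`, as soon as `sup_{W(A)} |P|` is at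
least `|lc P| (5ρ)^(deg P)` or `W(A)` has a point at distance at least `6ρ` from `c`;
(3) every quadratic `P = α z ^ 2 + β z + γ` with `|β ^ 2 - 4 α γ| ≤ 2 |α| sup_{W(A)} |P|`. -/
theorem result {H : Type*} [NormedAddCommGroup H] [InnerProductSpace ℂ H] (A : H →L[ℂ] H) :
    (∀ P : ℂ[X],
      (∀ z ∈ numRange A, StarConvex ℝ z {w : ℂ | ‖P.eval w‖ ≤ supOnRange A P}) →
      ‖aeval A P‖ ≤ 2 * supOnRange A P ∧
        ∀ ζ ∈ numRange (aeval A P), ‖ζ‖ ≤ supOnRange A P) ∧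
    (∀ (P : ℂ[X]) (c : ℂ) (ρ : ℝ),
      (∀ a : ℂ, P.eval a = 0 → ‖a - c‖ ≤ ρ) →
      (‖P.leadingCoeff‖ * (5 * ρ) ^ P.natDegree ≤ supOnRange A P ∨
        ∃ z ∈ numRange A, 6 * ρ ≤ ‖z - c‖) →
      ‖aeval A P‖ ≤ 2 * supOnRange A P ∧
        ∀ ζ ∈ numRange (aeval A P), ‖ζ‖ ≤ supOnRange A P) ∧
    (∀ α β γ : ℂ,
      ‖β ^ 2 - 4 * α * γ‖ ≤ 2 * ‖α‖ * supOnRange A (C α * X ^ 2 + C β * X + C γ) →
      ‖aeval A (C α * X ^ 2 + C β * X + C γ)‖ ≤
          2 * supOnRange A (C α * X ^ 2 + C β * X + C γ) ∧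
        ∀ ζ ∈ numRange (aeval A (C α * X ^ 2 + C β * X + C γ)),
          ‖ζ‖ ≤ supOnRange A (C α * X ^ 2 + C β * X + C γ)) :=
  ⟨fun P hstar => star_main A P hstar,
   fun P c ρ hroots hbig => clustered_main A P c ρ hroots hbig,
   fun α β γ hΔ => quadratic_main A α β γ hΔ⟩

end Vale.Agent.Results.P123.A0_Combined
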