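import Vale.Agent.P123.Final

namespace Vale.Agent.Results.P123.ClusteredZeros

open Polynomial Vale.Agent.P123

/-- Crouzeix's inequality with constant `2` (and the numerical radius bound with constant `1`)
for every operator `A` and every polynomial `P` whose zeros lie in a disc of radius `ρ` about `c`,
as soon as `sup_{W(A)} |P|` is at least `|lc P| (5ρ)^(deg P)`, for instance as soon as `W(A)`
contains a point at distance at least `6ρ` from `c`. -/
theorem result {H : Type*} [NormedAddCommGroup H] [InnerProductSpace ℂ H]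
    (A : H →L[ℂ] H) (P : ℂ[X]) (c : ℂ) (ρ : ℝ)
    (hroots : ∀ a : ℂ, P.eval a = 0 → ‖a - c‖ ≤ ρ)
    (hbig : ‖P.leadingCoeff‖ * (5 * ρ) ^ P.natDegree ≤ supOnRange A P ∨
      ∃ z ∈ numRange A, 6 * ρ ≤ ‖z - c‖) :
    ‖aeval A P‖ ≤ 2 * supOnRange A P ∧
      ∀ ζ ∈ numRange (aeval A P), ‖ζ‖ ≤ supOnRange A P :=
  clustered_main A P c ρ hroots hbig

end Vale.Agent.Results.P123.ClusteredZeros
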