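import Vale.Agent.P123.Final

namespace Vale.Agent.Results.P123.QuadraticSharp

open Polynomial Vale.Agent.P123

/-- Crouzeix's inequality with constant `2` for every quadratic polynomial
`P = α z ^ 2 + β z + γ` and every operator `A` such that the discriminant satisfies
`|β ^ 2 - 4 α γ| ≤ 2 |α| sup_{W(A)} |P|`. -/
theorem result {H : Type*} [NormedAddCommGroup H] [InnerProductSpace ℂ H]
    (A : H →L[ℂ] H) (α β γ : ℂ)
    (hΔ : ‖β ^ 2 - 4 * α * γ‖ ≤ 2 * ‖α‖ * supOnRange A (C α * X ^ 2 + C β * X + C γ)) :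
    ‖aeval A (C α * X ^ 2 + C β * X + C γ)‖ ≤ 2 * supOnRange A (C α * X ^ 2 + C β * X + C γ) ∧
      ∀ ζ ∈ numRange (aeval A (C α * X ^ 2 + C β * X + C γ)),
        ‖ζ‖ ≤ supOnRange A (C α * X ^ 2 + C β * X + C γ) :=
  quadratic_main A α β γ hΔ

end Vale.Agent.Results.P123.QuadraticSharp
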