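import Vale.Agent.P123.Final

namespace Vale.Agent.Results.P123.StarConvexLevel

open Polynomial Vale.Agent.P123

/-- Crouzeix's inequality with constant `2` for every pair `(A, P)` such that the sublevel set
`{w : |P w| ≤ sup_{W(A)} |P|}` is star-convex about every point of `W(A)` (for instance convex). -/
theorem result {H : Type*} [NormedAddCommGroup H] [InnerProductSpace ℂ H]
    (A : H →L[ℂ] H) (P : ℂ[X])
    (hstar : ∀ z ∈ numRange A, StarConvex ℝ z {w : ℂ | ‖P.eval w‖ ≤ supOnRange A P}) :
    ‖aeval A P‖ ≤ 2 * supOnRange A P ∧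
      ∀ ζ ∈ numRange (aeval A P), ‖ζ‖ ≤ supOnRange A P :=
  star_main A P hstar

end Vale.Agent.Results.P123.StarConvexLevel
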